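import Vale.Agent.P291.Hik.Defs

/-!
# P291: the Hilbert series of the fixed locus and points over finite fields

Definitions for the final statement. The flavour torus is trivial: `H^*_F(pt) = ℂ`, all flavour
weights are zero.
-/

namespace Vale.Agent.P291.Hik.QData

variable {I E : Type} (Q : QData I E)

/-- `ν` is regular over the field `k`: on `μ^{-1}(0)(k)` semistable points are stable. -/
def RegularOver [Fintype I] [Fintype E] (k : Type) [Field k] (ν : I → ℤ) : Prop :=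
  ∀ z : Q.Pt k, (∀ ξ, z.mu ξ = 0) → z.SS ν → z.St ν

/-- `dim X = 2 (dim N - dim G)` -/
def dimX [Fintype I] [Fintype E] : ℕ :=
  2 * ((∑ e : E, Q.v (Q.s e) * Q.v (Q.t e) + ∑ i : I, Q.v i * Q.w i) - ∑ i : I, Q.v i * Q.v i)

/-- The constants in `R`. -/
noncomputable def con : ℂ →+* Q.RR ℂ :=
  (RingHom.codRestrict (S := Q.SS ℂ) (MvPolynomial.C : ℂ →+* MvPolynomial Q.Col ℂ) (Q.inv ℂ)
    (fun c => Subring.mem_iInf.mpr fun _ => MvPolynomial.rename_C _ c) :)

variable [Fintype I] [Fintype E] [DecidableEq I]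

/-- The coordinate ring `ℂ[Y^ν]` of the scheme-theoretic fixed locus, for the trivial flavour
torus. -/
def CY0 (ν : I → ℤ) : Type := Q.CY (fun _ => (0 : ℂ)) ν

/-- `ℂ[Y^ν]` is an abelian group. -/
noncomputable instance (ν : I → ℤ) : AddCommGroup (Q.CY0 ν) :=
  (Ring.toAddCommGroup : AddCommGroup (Q.CY (fun _ => (0 : ℂ)) ν))

/-- The map `φ_C` from `R = H^*_G(pt)` to `ℂ[Y^ν]`. -/
noncomputable def phi0 (ν : I → ℤ) (r : Q.RR ℂ) : Q.CY0 ν := Q.phiC (fun _ => (0 : ℂ)) ν r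

/-- `ℂ[Y^ν]` is a complex vector space, via `ℂ → R → ℂ[Y^ν]`. -/
noncomputable instance (ν : I → ℤ) : Module ℂ (Q.CY0 ν) :=
  (Module.compHom (Q.CY (fun _ => (0 : ℂ)) ν) ((Q.phiC (fun _ => (0 : ℂ)) ν).comp Q.con) :)

/-- The part of degree `2 d` of `ℂ[Y^ν]`: the span of the images of the invariant polynomials in
the Chern roots that are homogeneous of degree `d`. -/
noncomputable def gr (ν : I → ℤ) (d : ℕ) : Submodule ℂ (Q.CY0 ν) :=
  Submodule.span ℂ {x | ∃ r : Q.RR ℂ,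
    MvPolynomial.IsHomogeneous (Q.toSS ℂ r : MvPolynomial Q.Col ℂ) d ∧ x = Q.phi0 ν r}

end Vale.Agent.P291.Hik.QData
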