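import Vale.Agent.P291.H415.N7.Defs
import Vale.Agent.P291.Hik.Points
import Vale.Agent.P291.H4Blk

/-!
# N7: the graded pieces of the coordinate ring of the fixed locus
-/

set_option linter.unusedSectionVars false

open MvPolynomial

namespace Vale.Agent.P291.N7

open Hik

/-- homogeneous components of elements of `J_C` are in `J_C` -/
theorem JC_comp {I E B k : Type*} [Fintype E] [DecidableEq I] [Fintype B] [DecidableEq B]
    [Field k] [CharZero k] (Q : QD I E B k) (h0 : ∀ a, Q.t a = 0) {f : SS B k} (hf : f ∈ Q.JC)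
    (n : ℕ) : homogeneousComponent n f ∈ Q.JC := by
  classical
  obtain ⟨f', hf', hff⟩ := JC_lift Q Q.line (H4.line_loops Q) (H4.ev0 k) H4.ev0_surj
    (H4.line_rel Q h0) hf
  rw [JC_eq_JD Q.line (H4.line_loops Q)] at hf'
  obtain ⟨F, hF, hFs⟩ := exists_dec (scalPoly k) f'
  have hf'' := hf'
  rw [hFs] at hf''
  have hFJ := H4.JD_comp Q.line (scalPoly k) (H4.line_lin Q) F hF hf'' n
  rw [← JC_eq_JD Q.line (H4.line_loops Q)] at hFJ
  have h1 : MvPolynomial.map (H4.ev0 k) (F n) ∈ Q.JC := JC_map Q Q.line (H4.ev0 k)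
    (H4.line_rel Q h0) hFJ
  have h2 : homogeneousComponent n f = MvPolynomial.map (H4.ev0 k) (F n) := by
    have h3 : f = H4.spz B k (F.sum fun _ x => x) := by
      rw [← hFs]; exact hff.symm
    rw [h3, Finsupp.sum, map_sum, map_sum]
    have h4 : ∀ m ∈ F.support, homogeneousComponent n (H4.spz B k (F m)) =
        if m = n then H4.spz B k (F m) else 0 := by
      intro m _
      rw [homogeneousComponent_of_mem (H4.spz_homog (hF m))]
      by_cases hmn : m = n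
      · rw [if_pos hmn.symm, if_pos hmn]
      · rw [if_neg (fun h => hmn h.symm), if_neg hmn]
    rw [Finset.sum_congr rfl h4, Finset.sum_ite_eq' F.support n fun m => H4.spz B k (F m)]
    split_ifs with h5
    · rfl
    · rw [Finsupp.notMem_support_iff.1 h5, map_zero]
  rw [h2]
  exact h1

variable {I E : Type} [Fintype I] [DecidableEq I] [Fintype E] (Q : QData I E)

/-- the data with zero weights -/
noncomputable abbrev K0 : QD I Q.Fl Q.Col ℂ := core Q (fun _ => (0 : ℂ))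

theorem K0_t (a : Q.Fl) : (K0 Q).t a = 0 := rfl

/-- an invariant polynomial as an element of `R` -/
noncomputable def toR {f : MvPolynomial Q.Col ℂ} (hf : f ∈ (K0 Q).R) : Q.RR ℂ :=
  ⟨f, (mem_inv Q (fun _ => (0 : ℂ)) _).mpr hf⟩

theorem toSS_toR {f : MvPolynomial Q.Col ℂ} (hf : f ∈ (K0 Q).R) : Q.toSS ℂ (toR Q hf) = f := rfl

theorem toSS_mem (r : Q.RR ℂ) : (Q.toSS ℂ r : MvPolynomial Q.Col ℂ) ∈ (K0 Q).R :=
  (mem_inv Q (fun _ => (0 : ℂ)) _).mp r.2

theorem toSS_inj {r r' : Q.RR ℂ} (h : Q.toSS ℂ r = Q.toSS ℂ r') : r = r' := Subtype.ext h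

variable (ν : I → ℤ)

theorem phi0_add (r s : Q.RR ℂ) : Q.phi0 ν (r + s) = Q.phi0 ν r + Q.phi0 ν s :=
  map_add (Q.phiC (fun _ => (0 : ℂ)) ν) r s

theorem phi0_smul (c : ℂ) (r : Q.RR ℂ) : Q.phi0 ν (Q.con c * r) = c • Q.phi0 ν r :=
  map_mul (Q.phiC (fun _ => (0 : ℂ)) ν) (Q.con c) r

/-- `φ_C` as a linear map on the invariant polynomials -/
noncomputable def Phi : ↥(Subalgebra.toSubmodule (K0 Q).R) →ₗ[ℂ] Q.CY0 ν where
  toFun f := Q.phi0 ν (toR Q f.2)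
  map_add' f g := by
    rw [← phi0_add]
    rfl
  map_smul' c f := by
    rw [RingHom.id_apply, ← phi0_smul]
    congr 1
    apply toSS_inj
    rw [map_mul]
    exact Algebra.smul_def c (f : MvPolynomial Q.Col ℂ)

theorem Phi_apply (f : ↥(Subalgebra.toSubmodule (K0 Q).R)) : Phi Q ν f = Q.phi0 ν (toR Q f.2) := rfl

variable {ν}

theorem Phi_eq_zero (hν : (K0 Q).II ≤ (K0 Q).JN ν) (f : ↥(Subalgebra.toSubmodule (K0 Q).R)) :
    Phi Q ν f = 0 ↔ (f : MvPolynomial Q.Col ℂ) ∈ (K0 Q).JC :=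
  mem_ker_phiC Q (fun _ => (0 : ℂ)) ν hν (toR Q f.2)

theorem Phi_surj (hν : (K0 Q).II ≤ (K0 Q).JN ν) : Function.Surjective (Phi Q ν) := by
  intro x
  obtain ⟨r, rfl⟩ := phiC_surjective Q (fun _ => (0 : ℂ)) ν hν x
  exact ⟨⟨Q.toSS ℂ r, toSS_mem Q r⟩, rfl⟩

variable (ν) in
/-- the homogeneous invariant polynomials -/
noncomputable def Hd (d : ℕ) : Submodule ℂ ↥(Subalgebra.toSubmodule (K0 Q).R) :=
  (homogeneousSubmodule Q.Col ℂ d).comap (Subalgebra.toSubmodule (K0 Q).R).subtype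

theorem mem_Hd (d : ℕ) (f : ↥(Subalgebra.toSubmodule (K0 Q).R)) :
    f ∈ Hd Q d ↔ (f : MvPolynomial Q.Col ℂ) ∈ homogeneousSubmodule Q.Col ℂ d := Iff.rfl

theorem gr_eq (d : ℕ) : Q.gr ν d = (Hd Q d).map (Phi Q ν) := by
  apply le_antisymm
  · unfold QData.gr
    rw [Submodule.span_le]
    rintro x ⟨r, hr, rfl⟩
    exact ⟨⟨Q.toSS ℂ r, toSS_mem Q r⟩, hr, rfl⟩
  · rintro _ ⟨f, hf, rfl⟩
    exact Submodule.subset_span ⟨toR Q f.2, hf, rfl⟩

/-- the homogeneous component of an invariant polynomial -/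
noncomputable def comp (d : ℕ) (f : ↥(Subalgebra.toSubmodule (K0 Q).R)) :
    ↥(Subalgebra.toSubmodule (K0 Q).R) :=
  ⟨homogeneousComponent d (f : MvPolynomial Q.Col ℂ), fun σ hσ => by
    rw [rename_homogeneousComponent, f.2 σ hσ]⟩

theorem comp_mem (d : ℕ) (f : ↥(Subalgebra.toSubmodule (K0 Q).R)) : comp Q d f ∈ Hd Q d :=
  homogeneousComponent_isHomogeneous d _

theorem sum_comp (f : ↥(Subalgebra.toSubmodule (K0 Q).R)) :
    ∑ d ∈ Finset.range ((f : MvPolynomial Q.Col ℂ).totalDegree + 1), comp Q d f = f := by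
  apply Subtype.ext
  rw [Submodule.coe_sum]
  exact sum_homogeneousComponent _

/-- the projection to the homogeneous component -/
noncomputable def cmp (d : ℕ) : ↥(Subalgebra.toSubmodule (K0 Q).R) →ₗ[ℂ]
    MvPolynomial Q.Col ℂ :=
  (homogeneousComponent d).comp (Subalgebra.toSubmodule (K0 Q).R).subtype

theorem cmp_of_ne (d : ℕ) (g : ↥(Subalgebra.toSubmodule (K0 Q).R))
    (hg : g ∈ ⨆ (j : ℕ) (_ : j ≠ d), Hd Q j) :
    homogeneousComponent d (g : MvPolynomial Q.Col ℂ) = 0 := by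
  have h : (⨆ (j : ℕ) (_ : j ≠ d), Hd Q j) ≤ LinearMap.ker (cmp Q d) := by
    refine iSup₂_le fun j hj f hf => ?_
    rw [LinearMap.mem_ker]
    show homogeneousComponent d (f : MvPolynomial Q.Col ℂ) = 0
    rw [homogeneousComponent_of_mem ((mem_Hd Q j f).1 hf), if_neg hj.symm]
  exact h hg

/-- the graded pieces are independent -/
theorem indep (hν : (K0 Q).II ≤ (K0 Q).JN ν) : iSupIndep (Q.gr ν) := by
  intro d
  rw [Submodule.disjoint_def]
  intro x hx hx'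
  rw [gr_eq] at hx
  obtain ⟨f, hf, rfl⟩ := hx
  have h1 : (⨆ (j : ℕ) (_ : j ≠ d), Q.gr ν j) = (⨆ (j : ℕ) (_ : j ≠ d), Hd Q j).map (Phi Q ν) := by
    rw [Submodule.map_iSup]
    refine iSup_congr fun j => ?_
    rw [Submodule.map_iSup]
    exact iSup_congr fun _ => gr_eq Q j
  rw [h1] at hx'
  obtain ⟨g, hg, hgf⟩ := hx'
  have h2 : Phi Q ν (f - g) = 0 := by rw [map_sub, hgf, sub_self]
  rw [Phi_eq_zero Q hν] at h2
  have h3 := JC_comp (K0 Q) (K0_t Q) h2 d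
  have h4 : homogeneousComponent d ((f - g : ↥(Subalgebra.toSubmodule (K0 Q).R)) :
      MvPolynomial Q.Col ℂ) = f := by
    rw [Submodule.coe_sub, map_sub, cmp_of_ne Q d g hg, sub_zero,
      homogeneousComponent_of_mem ((mem_Hd Q d f).1 hf), if_pos rfl]
  rw [h4] at h3
  exact (Phi_eq_zero Q hν f).2 h3

/-- the graded pieces span -/
theorem iSup_gr (hν : (K0 Q).II ≤ (K0 Q).JN ν) : ⨆ d, Q.gr ν d = ⊤ := by
  rw [eq_top_iff]
  rintro x -
  obtain ⟨f, rfl⟩ := Phi_surj Q hν x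
  rw [← sum_comp Q f, map_sum]
  refine Submodule.sum_mem _ fun d _ => ?_
  refine Submodule.mem_iSup_of_mem d ?_
  rw [gr_eq]
  exact ⟨_, comp_mem Q d f, rfl⟩

/-- the direct sum decomposition -/
theorem isInternal (hν : (K0 Q).II ≤ (K0 Q).JN ν) : DirectSum.IsInternal (Q.gr ν) :=
  (DirectSum.isInternal_submodule_iff_iSupIndep_and_iSup_eq_top (Q.gr ν)).2
    ⟨indep Q hν, iSup_gr Q hν⟩

theorem mem_RC (d : ℕ) (f : MvPolynomial Q.Col ℂ) :
    f ∈ (K0 Q).RC (d : ℤ) ↔ f ∈ (K0 Q).R ∧ f.IsHomogeneous d := by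
  unfold QD.RC
  rw [if_pos (Int.natCast_nonneg d), Int.toNat_natCast]
  rfl

theorem mem_JCd (d : ℕ) (f : MvPolynomial Q.Col ℂ) :
    f ∈ (K0 Q).JCd (d : ℤ) ↔ f ∈ (K0 Q).JC ∧ f.IsHomogeneous d := by
  unfold QD.JCd
  rw [if_pos (Int.natCast_nonneg d), Int.toNat_natCast]
  constructor
  · rintro ⟨h1, h2⟩
    exact ⟨H4.mem_span_JC _ h1, h2⟩
  · rintro ⟨h1, h2⟩
    exact ⟨Submodule.subset_span h1, h2⟩

theorem finrank_range_alg {A M : Type*} [AddCommGroup A] [Module ℂ A] [AddCommGroup M] [Module ℂ M]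
    (Ψ : M →ₗ[ℂ] A) : Module.finrank ℂ (LinearMap.range Ψ) =
      Module.finrank ℂ (M ⧸ LinearMap.ker Ψ) := (LinearMap.quotKerEquivRange Ψ).finrank_eq.symm

/-- the restriction of `φ_C` to the homogeneous invariant polynomials -/
noncomputable def Psi (ν : I → ℤ) (d : ℕ) : ↥((K0 Q).RC (d : ℤ)) →ₗ[ℂ] Q.CY0 ν :=
  (Phi Q ν).comp (Submodule.inclusion (show (K0 Q).RC (d : ℤ) ≤
      Subalgebra.toSubmodule (K0 Q).R from fun f hf => ((mem_RC Q d f).1 hf).1))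

theorem range_Psi (d : ℕ) : LinearMap.range (Psi Q ν d) = Q.gr ν d := by
  rw [gr_eq]
  apply le_antisymm
  · rintro _ ⟨f, rfl⟩
    exact ⟨_, ((mem_RC Q d f.1).1 f.2).2, rfl⟩
  · rintro _ ⟨f, hf, rfl⟩
    exact ⟨⟨f.1, (mem_RC Q d f.1).2 ⟨f.2, hf⟩⟩, rfl⟩

theorem ker_Psi (hν : (K0 Q).II ≤ (K0 Q).JN ν) (d : ℕ) : LinearMap.ker (Psi Q ν d) =
    ((K0 Q).JCd (d : ℤ)).submoduleOf ((K0 Q).RC (d : ℤ)) := by
  ext f
  have h3 : Psi Q ν d f = 0 ↔ (f : MvPolynomial Q.Col ℂ) ∈ (K0 Q).JC := Phi_eq_zero Q hν _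
  refine (LinearMap.mem_ker.trans h3).trans ?_
  constructor
  · intro h
    exact (mem_JCd Q d f.1).2 ⟨h, ((mem_RC Q d f.1).1 f.2).2⟩
  · intro h
    exact ((mem_JCd Q d f.1).1 h).1

/-- the graded dimensions -/
theorem finrank_gr (hν : (K0 Q).II ≤ (K0 Q).JN ν) (d : ℕ) :
    Module.finrank ℂ (Q.gr ν d) = (K0 Q).hC (d : ℤ) := by
  rw [← range_Psi, finrank_range_alg (Psi Q ν d)]
  unfold QD.hC
  rw [ker_Psi Q hν]

theorem range_bot_alg {A M : Type*} [AddCommGroup A] [Module ℂ A] [AddCommGroup M] [Module ℂ M]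
    [Module.Finite ℂ M] (Ψ : M →ₗ[ℂ] A) (h : Module.finrank ℂ (LinearMap.range Ψ) = 0) :
    LinearMap.range Ψ = ⊥ := Submodule.finrank_eq_zero.1 h

theorem gr_bot (d : ℕ) (h : Module.finrank ℂ (Q.gr ν d) = 0) : Q.gr ν d = ⊥ := by
  have hfin : Module.Finite ℂ ↥((K0 Q).RC (d : ℤ)) := by
    have h1 : Module.Finite ℂ (homogeneousSubmodule Q.Col ℂ d) :=
      Module.Finite.iff_fg.2 (homogeneousSubmodule_fg (σ := Q.Col) (R := ℂ) (n := d))
    have h2 : (K0 Q).RC (d : ℤ) ≤ homogeneousSubmodule Q.Col ℂ d := fun f hf =>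
      ((mem_RC Q d f).1 hf).2
    exact Submodule.finiteDimensional_of_le h2
  rw [← range_Psi] at h ⊢
  exact range_bot_alg (Psi Q ν d) h

end Vale.Agent.P291.N7
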