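import Vale.Agent.P291.H415.N7.Stab
import Vale.Agent.P291.H415.N7.Fix
import Vale.Agent.P291.H415.N5.Final

/-!
# N7: the Hilbert series of the coordinate ring of the fixed locus counts points
-/

set_option linter.unusedSectionVars false

open MvPolynomial

namespace Vale.Agent.P291.N7

open Hik

variable {I E : Type} [Fintype I] [DecidableEq I] [Fintype E] (Q : QData I E)

theorem nb_K0 (i : I) : N5.nb (K0 Q) i = Q.v i := by
  unfold N5.nb
  have h : (Finset.univ.filter fun b : Q.Col => (K0 Q).vx b = i).card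
      = Fintype.card {b : Q.Col // (K0 Q).vx b = i} := (Fintype.card_subtype _).symm
  rw [h]
  have e : {b : Q.Col // (K0 Q).vx b = i} ≃ Fin (Q.v i) := Equiv.sigmaSubtype i
  rw [Fintype.card_congr e, Fintype.card_fin]

theorem dvec_K0 : N5.dvec (K0 Q) = vf Q := by
  ext i
  exact nb_K0 Q i

theorem dd_K0 : N5.dd (K0 Q) =
    ((∑ e : E, Q.v (Q.s e) * Q.v (Q.t e) + ∑ i : I, Q.v i * Q.w i : ℕ) : ℤ)
      - (∑ i : I, Q.v i * Q.v i : ℕ) := by
  unfold N5.dd
  rw [N5.card_Wt, N5.card_Prs]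
  congr 1
  · congr 1
    rw [Fintype.sum_sum_type]
    congr 1
    · refine Finset.sum_congr rfl fun e _ => ?_
      have h1 : N5.no (K0 Q) ((K0 Q).tgt (Sum.inl e)) = N5.nb (K0 Q) (Q.t e) := rfl
      rw [h1]
      exact congrArg₂ (· * ·) (nb_K0 Q (Q.s e)) (nb_K0 Q (Q.t e))
    · rw [Fintype.sum_sigma]
      refine Finset.sum_congr rfl fun i _ => ?_
      have h2 : ∀ l : Fin (Q.w i), N5.nb (K0 Q) ((K0 Q).src (Sum.inr ⟨i, l⟩)) *
          N5.no (K0 Q) ((K0 Q).tgt (Sum.inr ⟨i, l⟩)) = Q.v i := by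
        intro l
        have h1 : N5.no (K0 Q) ((K0 Q).tgt (Sum.inr ⟨i, l⟩)) = 1 := rfl
        rw [h1, mul_one]
        exact nb_K0 Q i
      rw [Finset.sum_congr rfl fun l _ => h2 l, Finset.sum_const, Finset.card_univ,
        Fintype.card_fin, smul_eq_mul, mul_comm]
  · congr 1
    exact Finset.sum_congr rfl fun i _ => by rw [nb_K0]

theorem card_gau (k : Type) [Field k] [Finite k] :
    Nat.card (N3.Gau k (N3.FV k (vf Q) 1)) =
      ∏ i : I, Nat.card (Matrix.GeneralLinearGroup (Fin (Q.v i)) k) := by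
  rw [Nat.card_pi]
  refine Finset.prod_congr rfl fun i _ => ?_
  have e : Matrix.GeneralLinearGroup (Fin (Q.v i)) k ≃
      ((Fin (Q.v i) → k) ≃ₗ[k] (Fin (Q.v i) → k)) :=
    (Matrix.GeneralLinearGroup.toLin.trans
      (LinearMap.GeneralLinearGroup.generalLinearEquiv k _)).toEquiv
  exact (Nat.card_congr e).symm

theorem sum_conv (dd : ℤ) (D : ℕ) (h : ℤ → ℕ) (q : ℕ) (hD : (D : ℤ) = max (2 * dd) 0)
    (hv : ∀ e, 2 * dd < e → h e = 0) :
    ∑ e ∈ Finset.Icc 0 (2 * dd), h e * q ^ (2 * dd - e).toNat =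
      ∑ d ∈ Finset.range (D + 1), h (d : ℤ) * q ^ (D - d) := by
  rcases le_or_gt 0 (2 * dd) with h0 | h0
  · have hD' : (D : ℤ) = 2 * dd := by rw [hD, max_eq_left h0]
    rw [← hD']
    symm
    refine Finset.sum_bij (fun (d : ℕ) _ => (d : ℤ)) ?_ ?_ ?_ ?_
    · intro d hd
      rw [Finset.mem_range] at hd
      rw [Finset.mem_Icc]
      omega
    · intro a _ b _ hab
      exact_mod_cast hab
    · intro e he
      rw [Finset.mem_Icc] at he
      refine ⟨e.toNat, ?_, ?_⟩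
      · rw [Finset.mem_range]
        omega
      · omega
    · intro d hd
      rw [Finset.mem_range] at hd
      congr 2
      omega
  · have hD' : D = 0 := by
      rw [max_eq_right h0.le] at hD
      exact_mod_cast hD
    subst hD'
    rw [Finset.Icc_eq_empty (by omega), Finset.sum_empty, zero_add, Finset.sum_range_one]
    rw [show ((0 : ℕ) : ℤ) = 0 from rfl, hv 0 h0, zero_mul]

theorem dimX_eq : (Q.dimX : ℤ) = max (2 * N5.dd (K0 Q)) 0 := by
  rw [dd_K0]
  unfold QData.dimX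
  rcases le_total (∑ i : I, Q.v i * Q.v i)
    (∑ e : E, Q.v (Q.s e) * Q.v (Q.t e) + ∑ i : I, Q.v i * Q.w i) with h | h
  · rw [max_eq_left (by
      have : ((∑ i : I, Q.v i * Q.v i : ℕ) : ℤ) ≤
        ((∑ e : E, Q.v (Q.s e) * Q.v (Q.t e) + ∑ i : I, Q.v i * Q.w i : ℕ) : ℤ) := by
          exact_mod_cast h
      linarith)]
    rw [Nat.cast_mul, Nat.cast_sub h]
    rfl
  · rw [max_eq_right (by
      have : ((∑ e : E, Q.v (Q.s e) * Q.v (Q.t e) + ∑ i : I, Q.v i * Q.w i : ℕ) : ℤ) ≤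
        ((∑ i : I, Q.v i * Q.v i : ℕ) : ℤ) := by
          exact_mod_cast h
      linarith)]
    rw [Nat.sub_eq_zero_of_le h]
    rfl

theorem point_count {ν : I → ℤ} (hν : (K0 Q).II ≤ (K0 Q).JN ν) (k : Type) [Field k] [Finite k]
    (ν' : I → ℤ) (hk : Q.RegularOver k ν') :
    Nat.card {z : Q.Pt k // (∀ ξ, z.mu ξ = 0) ∧ z.SS ν'} =
      (∏ i : I, Nat.card (Matrix.GeneralLinearGroup (Fin (Q.v i)) k)) *
        ∑ d ∈ Finset.range (Q.dimX + 1),
          Module.finrank ℂ (Q.gr ν d) * Nat.card k ^ (Q.dimX - d) := by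
  rw [card_SS ν', N3.card_FF ν' (vf Q) (regK_of ν' hk), N3.card_ST, card_gau, mul_comm]
  congr 1
  have h1 := N5.count_points (k := k) (K0 Q) (K0_t Q)
  rw [dvec_K0] at h1
  refine Eq.trans h1 ?_
  rw [sum_conv (N5.dd (K0 Q)) Q.dimX (K0 Q).hC (Nat.card k) (dimX_eq Q)
    (N5.hC_vanish (K0 Q) (K0_t Q))]
  exact Finset.sum_congr rfl fun d _ => by rw [finrank_gr Q hν]

theorem gr_vanish {ν : I → ℤ} (hν : (K0 Q).II ≤ (K0 Q).JN ν) (d : ℕ) (hd : Q.dimX < d) :
    Q.gr ν d = ⊥ := by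
  have h1 : Module.finrank ℂ (Q.gr ν d) = 0 := by
    rw [finrank_gr Q hν]
    apply N5.hC_vanish (K0 Q) (K0_t Q)
    have h2 := dimX_eq Q
    have h3 : (Q.dimX : ℤ) < d := by exact_mod_cast hd
    rw [h2] at h3
    exact lt_of_le_of_lt (le_max_left _ _) h3
  exact gr_bot Q d h1

end Vale.Agent.P291.N7
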