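import Vale.Agent.P291.Hik.Prod
import Vale.Agent.P291.H415.N6.Gen
import Vale.Agent.P291.H415.N5.Dim

/-!
# N7: points in coordinates
-/

set_option linter.unusedSectionVars false

open MvPolynomial

namespace Vale.Agent.P291.N7

open Hik

variable {I E : Type} [Fintype I] [DecidableEq I] [Fintype E] (Q : QData I E)
variable {k : Type} [Field k]

/-- the quiver with framing lines -/
def nq : N3.Qv I Q.Fl := ⟨Sum.elim Q.s (fun l => l.1), Sum.elim (fun e => some (Q.t e)) (fun _ => none)⟩

/-- the dimension vector -/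
noncomputable def vf : I →₀ ℕ := Finsupp.equivFunOnFinite.symm Q.v

variable (k) in
/-- representations -/
abbrev RR1 : Type := N3.Rep k (nq Q) (N3.FV k (vf Q) 1)

variable (k) in
/-- dual representations -/
abbrev RR2 : Type := N3.Red k (nq Q) (N3.FV k (vf Q) 1)

variable {Q}

/-- the arrow part of a representation -/
def ax (x : RR1 Q k) (e : E) : (Fin (Q.v (Q.s e)) → k) →ₗ[k] (Fin (Q.v (Q.t e)) → k) :=
  x (Sum.inl e)

/-- the arrow part of a dual representation -/
def ay (y : RR2 Q k) (e : E) : (Fin (Q.v (Q.t e)) → k) →ₗ[k] (Fin (Q.v (Q.s e)) → k) :=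
  y (Sum.inl e)

/-- the framing part of a representation -/
def aj (x : RR1 Q k) (i : I) (l : Fin (Q.w i)) : (Fin (Q.v i) → k) →ₗ[k] (Fin 1 → k) :=
  x (Sum.inr ⟨i, l⟩)

/-- the framing part of a dual representation -/
def ai (y : RR2 Q k) (i : I) (l : Fin (Q.w i)) : (Fin 1 → k) →ₗ[k] (Fin (Q.v i) → k) :=
  y (Sum.inr ⟨i, l⟩)

/-- the coordinates of a point -/
noncomputable def pt (p : RR1 Q k × RR2 Q k) : Q.Pt k where
  x e := LinearMap.toMatrix' (ax p.1 e)
  y e := LinearMap.toMatrix' (ay p.2 e)
  j i := Matrix.of fun l r => aj p.1 i l (Pi.single r 1) 0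
  i i := Matrix.of fun r l => ai p.2 i l (fun _ => 1) r

theorem pt_bijective : Function.Bijective (pt (Q := Q) (k := k)) := by
  constructor
  · rintro ⟨x, y⟩ ⟨x', y'⟩ h
    have h1 := congrArg QData.Pt.x h
    have h2 := congrArg QData.Pt.y h
    have h3 := congrArg QData.Pt.j h
    have h4 := congrArg QData.Pt.i h
    apply Prod.ext
    · funext a
      rcases a with e | ⟨i, l⟩
      · exact LinearMap.toMatrix'.injective (congrFun h1 e)
      · have h5 : aj x i l = aj x' i l := by
          apply LinearMap.pi_ext'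
          intro r
          apply LinearMap.ext_ring
          funext z
          have hz : z = 0 := Subsingleton.elim _ _
          rw [hz]
          exact congrFun (congrFun (congrFun h3 i) l) r
        exact h5
    · funext a
      rcases a with e | ⟨i, l⟩
      · exact LinearMap.toMatrix'.injective (congrFun h2 e)
      · have h5 : ai y i l = ai y' i l := by
          apply LinearMap.pi_ext'
          intro z
          apply LinearMap.ext_ring
          funext r
          have hz : (Pi.single z (1 : k) : Fin 1 → k) = fun _ => 1 := by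
            funext t
            have : t = z := Subsingleton.elim _ _
            rw [this, Pi.single_eq_same]
          have h6 := congrFun (congrFun (congrFun h4 i) r) l
          have h7 : ai y i l (fun _ => 1) r = ai y' i l (fun _ => 1) r := h6
          show ai y i l (Pi.single z 1) r = ai y' i l (Pi.single z 1) r
          rw [hz]
          exact h7
        exact h5
  · intro z
    let x : RR1 Q k := fun a => match a with
      | Sum.inl e => Matrix.toLin' (z.x e)
      | Sum.inr l => LinearMap.pi fun _ =>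
          (LinearMap.proj l.2).comp (Matrix.toLin' (z.j l.1))
    let y : RR2 Q k := fun a => match a with
      | Sum.inl e => Matrix.toLin' (z.y e)
      | Sum.inr l => (LinearMap.toSpanSingleton k (Fin (Q.v l.1) → k) (fun r => z.i l.1 r l.2)).comp
          (LinearMap.proj (0 : Fin 1))
    refine ⟨(x, y), ?_⟩
    have e1 : ∀ e, (pt (x, y)).x e = z.x e := fun e => LinearMap.toMatrix'_toLin' _
    have e2 : ∀ e, (pt (x, y)).y e = z.y e := fun e => LinearMap.toMatrix'_toLin' _
    have e3 : ∀ i, (pt (x, y)).j i = z.j i := by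
      intro i
      ext l r
      show (Matrix.toLin' (z.j i) (Pi.single r 1)) l = z.j i l r
      rw [Matrix.toLin'_apply, Matrix.mulVec_single_one]
      rfl
    have e4 : ∀ i, (pt (x, y)).i i = z.i i := by
      intro i
      ext r l
      show ((1 : k) • (fun r => z.i i r l)) r = z.i i r l
      rw [one_smul]
    obtain ⟨zx, zy, zj, zi⟩ := z
    have : pt (x, y) = ⟨(pt (x, y)).x, (pt (x, y)).y, (pt (x, y)).j, (pt (x, y)).i⟩ := rfl
    rw [this]
    congr
    · funext e; exact e1 e
    · funext e; exact e2 e
    · funext e; exact e3 e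
    · funext e; exact e4 e

theorem pt_x (p : RR1 Q k × RR2 Q k) (e : E) (u : Fin (Q.v (Q.s e)) → k) :
    ((pt p).x e).mulVec u = ax p.1 e u := LinearMap.toMatrix'_mulVec _ _

theorem pt_y (p : RR1 Q k × RR2 Q k) (e : E) (u : Fin (Q.v (Q.t e)) → k) :
    ((pt p).y e).mulVec u = ay p.2 e u := LinearMap.toMatrix'_mulVec _ _

theorem pt_j (p : RR1 Q k × RR2 Q k) (i : I) (u : Fin (Q.v i) → k) (l : Fin (Q.w i)) :
    ((pt p).j i).mulVec u l = aj p.1 i l u 0 := by
  have h1 : u = ∑ r, u r • (Pi.single r 1 : Fin (Q.v i) → k) := by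
    funext r
    simp [Finset.sum_apply, Pi.single_apply]
  conv_rhs => rw [h1]
  rw [map_sum, Finset.sum_apply]
  unfold Matrix.mulVec dotProduct
  refine Finset.sum_congr rfl fun r _ => ?_
  rw [map_smul, Pi.smul_apply, smul_eq_mul, mul_comm]
  rfl

theorem pt_i (p : RR1 Q k × RR2 Q k) (i : I) (a : Fin (Q.w i) → k) :
    ((pt p).i i).mulVec a = ∑ l, a l • ai p.2 i l (fun _ => 1) := by
  funext r
  have h : (∑ l, a l • ai p.2 i l (fun _ => 1) : Fin (Q.v i) → k) r =
      ∑ l, a l * (ai p.2 i l (fun _ => 1) : Fin (Q.v i) → k) r :=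
    Finset.sum_apply (M := fun _ : Fin (Q.v i) => k) r Finset.univ
      (fun l => a l • (ai p.2 i l (fun _ => 1) : Fin (Q.v i) → k))
  refine Eq.trans ?_ h.symm
  unfold Matrix.mulVec dotProduct
  refine Finset.sum_congr rfl fun r _ => ?_
  exact mul_comm _ _

end Vale.Agent.P291.N7
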