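import Vale.Agent.P291.H415.N7.Pts

/-!
# N7: moment map and stability in coordinates
-/

set_option linter.unusedSectionVars false

open MvPolynomial

namespace Vale.Agent.P291.N7

open Hik

open N3 (cn Tp Sb th RegK MuZero)

variable {I E : Type} [Fintype I] [DecidableEq I] [Fintype E] {Q : QData I E}
variable {k : Type} [Field k]

theorem trace_toMatrix' {n : ℕ} (f : (Fin n → k) →ₗ[k] (Fin n → k)) :
    LinearMap.trace k _ f = (LinearMap.toMatrix' f).trace := by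
  rw [LinearMap.trace_eq_matrix_trace k (Pi.basisFun k (Fin n)) f,
    LinearMap.toMatrix_eq_toMatrix']

theorem frame_trace {n : ℕ} (a : (Fin n → k) →ₗ[k] (Fin 1 → k)) (b : (Fin 1 → k) →ₗ[k] (Fin n → k))
    (ξ : Matrix (Fin n) (Fin n) k) :
    LinearMap.trace k _ (b ∘ₗ ((0 : (Fin 1 → k) →ₗ[k] (Fin 1 → k)) ∘ₗ a - a ∘ₗ Matrix.toLin' ξ))
      = - a (ξ.mulVec (b (fun _ => 1))) 0 := by
  rw [LinearMap.zero_comp, zero_sub, LinearMap.comp_neg, map_neg]
  congr 1
  rw [LinearMap.trace_comp_comm', trace_toMatrix', Matrix.trace_fin_one, LinearMap.toMatrix'_apply]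
  have h4 : (Pi.single 0 1 : Fin 1 → k) = fun _ => 1 := by
    funext t
    have ht : t = 0 := Subsingleton.elim _ _
    rw [ht, Pi.single_eq_same]
  rw [h4]
  rfl

theorem pt_mu (p : RR1 Q k × RR2 Q k) (ξ : ∀ i : I, Matrix (Fin (Q.v i)) (Fin (Q.v i)) k) :
    (pt p).mu ξ = N3.pair p.2 (N3.dot (fun i => Matrix.toLin' (ξ i)) p.1) := by
  unfold QData.Pt.mu N3.pair
  rw [Fintype.sum_sum_type, sub_eq_add_neg]
  congr 1
  · refine Finset.sum_congr rfl fun e _ => ?_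
    have h1 : (p.2 (Sum.inl e) ∘ₗ N3.dot (fun i => Matrix.toLin' (ξ i)) p.1 (Sum.inl e))
        = ay p.2 e ∘ₗ (Matrix.toLin' (ξ (Q.t e)) ∘ₗ ax p.1 e - ax p.1 e ∘ₗ
          Matrix.toLin' (ξ (Q.s e))) := rfl
    have h2 := trace_toMatrix' (ay p.2 e ∘ₗ (Matrix.toLin' (ξ (Q.t e)) ∘ₗ ax p.1 e - ax p.1 e ∘ₗ
          Matrix.toLin' (ξ (Q.s e))))
    rw [LinearMap.toMatrix'_comp, map_sub, LinearMap.toMatrix'_comp,
      LinearMap.toMatrix'_comp, LinearMap.toMatrix'_toLin', LinearMap.toMatrix'_toLin'] at h2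
    refine Eq.trans ?_ (congrArg (LinearMap.trace k _) h1).symm
    exact h2.symm
  · rw [Fintype.sum_sigma, ← Finset.sum_neg_distrib]
    refine Finset.sum_congr rfl fun i _ => ?_
    have h1 : ∀ l : Fin (Q.w i), LinearMap.trace k _
        (p.2 (Sum.inr ⟨i, l⟩) ∘ₗ N3.dot (fun i => Matrix.toLin' (ξ i)) p.1 (Sum.inr ⟨i, l⟩))
        = - aj p.1 i l ((ξ i).mulVec (ai p.2 i l (fun _ => 1))) 0 :=
      fun l => frame_trace (aj p.1 i l) (ai p.2 i l) (ξ i)
    refine Eq.trans ?_ (Finset.sum_congr rfl fun l _ => (h1 l).symm)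
    rw [Finset.sum_neg_distrib]
    congr 1
    rw [Matrix.trace_mul_comm]
    unfold Matrix.trace
    refine Finset.sum_congr rfl fun l _ => ?_
    rw [Matrix.diag_apply, Matrix.mul_assoc]
    have h : ((pt p).j i * (ξ i * (pt p).i i)) l l =
        ((pt p).j i).mulVec ((ξ i).mulVec (ai p.2 i l (fun _ => 1))) l := by
      rw [Matrix.mul_apply]
      unfold Matrix.mulVec dotProduct
      refine Finset.sum_congr rfl fun r _ => ?_
      rw [Matrix.mul_apply]
      rfl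
    rw [h, pt_j]

theorem muZero_pt (p : RR1 Q k × RR2 Q k) :
    (∀ ξ, (pt p).mu ξ = 0) ↔ MuZero p.1 p.2 := by
  constructor
  · intro h ξ
    have h1 := h (fun i => LinearMap.toMatrix' (ξ i))
    rw [pt_mu] at h1
    have h2 : (fun i => Matrix.toLin' (LinearMap.toMatrix' (ξ i))) = ξ := by
      funext i
      exact Matrix.toLin'_toMatrix' _
    rw [← h1]
    congr 1
    congr 1
    exact h2.symm
  · intro h ξ
    rw [pt_mu]
    exact h _

/-- graded subspaces with given framing part -/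
def gs (S : Submodule k (Fin 1 → k)) (U : ∀ i : I, Submodule k (Fin (Q.v i) → k)) :
    ∀ j, Submodule k (N3.FV k (vf Q) 1 j)
  | none => S
  | some i => U i

/-- the framing part of a graded subspace -/
def un (U' : ∀ j, Submodule k (N3.FV k (vf Q) 1 j)) : Submodule k (Fin 1 → k) := U' none

/-- the other parts of a graded subspace -/
def us (U' : ∀ j, Submodule k (N3.FV k (vf Q) 1 j)) (i : I) : Submodule k (Fin (Q.v i) → k) :=
  U' (some i)

theorem sub_of_Sb (p : RR1 Q k × RR2 Q k) (U' : ∀ j, Submodule k (N3.FV k (vf Q) 1 j))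
    (h : Sb p.1 p.2 U') : (pt p).IsSub (us U') := by
  intro e
  refine ⟨fun u hu => ?_, fun u hu => ?_⟩
  · exact (pt_x p e u) ▸ h.1 (Sum.inl e) u hu
  · exact (pt_y p e u) ▸ h.2 (Sum.inl e) u hu

theorem sub_x (p : RR1 Q k × RR2 Q k) (U : ∀ i : I, Submodule k (Fin (Q.v i) → k))
    (hU : (pt p).IsSub U) (e : E) (u : Fin (Q.v (Q.s e)) → k) (hu : u ∈ U (Q.s e)) :
    ax p.1 e u ∈ U (Q.t e) := by
  have h1 := (hU e).1 u hu
  rw [pt_x] at h1
  exact h1

theorem sub_y (p : RR1 Q k × RR2 Q k) (U : ∀ i : I, Submodule k (Fin (Q.v i) → k))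
    (hU : (pt p).IsSub U) (e : E) (u : Fin (Q.v (Q.t e)) → k) (hu : u ∈ U (Q.t e)) :
    ay p.2 e u ∈ U (Q.s e) := by
  have h1 := (hU e).2 u hu
  rw [pt_y] at h1
  exact h1

theorem sub_j (p : RR1 Q k × RR2 Q k) (U : ∀ i : I, Submodule k (Fin (Q.v i) → k))
    (hj : ∀ i, ∀ u ∈ U i, ((pt p).j i).mulVec u = 0) (i : I) (l : Fin (Q.w i))
    (u : Fin (Q.v i) → k) (hu : u ∈ U i) : aj p.1 i l u ∈ (⊥ : Submodule k (Fin 1 → k)) := by
  have h1 := congrFun (hj i u hu) l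
  rw [pt_j] at h1
  rw [Submodule.mem_bot]
  funext z
  have hz : z = 0 := Subsingleton.elim _ _
  rw [hz]
  exact h1

theorem sub_zero (p : RR1 Q k × RR2 Q k) (U : ∀ i : I, Submodule k (Fin (Q.v i) → k))
    (i : I) (l : Fin (Q.w i)) (u : Fin 1 → k) (hu : u ∈ (⊥ : Submodule k (Fin 1 → k))) :
    ai p.2 i l u ∈ U i := by
  rw [Submodule.mem_bot] at hu
  rw [hu, map_zero]
  exact Submodule.zero_mem _

theorem sub_i (p : RR1 Q k × RR2 Q k) (U : ∀ i : I, Submodule k (Fin (Q.v i) → k))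
    (hi : ∀ (i : I) (a : Fin (Q.w i) → k), ((pt p).i i).mulVec a ∈ U i) (i : I) (l : Fin (Q.w i))
    (u : Fin 1 → k) : ai p.2 i l u ∈ U i := by
  have h1 := hi i (Pi.single l 1)
  rw [pt_i, Finset.sum_eq_single l] at h1
  · rw [Pi.single_eq_same, one_smul] at h1
    have h2 : ai p.2 i l u = u 0 • ai p.2 i l (fun _ => 1) := by
      rw [← map_smul]
      congr 1
      funext z
      have hz : z = 0 := Subsingleton.elim _ _
      rw [hz]
      simp
    rw [h2]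
    exact Submodule.smul_mem _ _ h1
  · intro l' _ hl
    rw [Pi.single_eq_of_ne hl, zero_smul]
  · intro hl
    exact absurd (Finset.mem_univ _) hl

theorem Sb_bot_iff (p : RR1 Q k × RR2 Q k) (U : ∀ i : I, Submodule k (Fin (Q.v i) → k))
    (hU : (pt p).IsSub U) (hj : ∀ i, ∀ u ∈ U i, ((pt p).j i).mulVec u = 0) :
    Sb p.1 p.2 (gs (Q := Q) ⊥ U) := by
  refine ⟨?_, ?_⟩
  · rintro (e | ⟨i, l⟩) u hu
    · exact sub_x p U hU e u hu
    · exact sub_j p U hj i l u hu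
  · rintro (e | ⟨i, l⟩) u hu
    · exact sub_y p U hU e u hu
    · exact sub_zero p U i l u hu

theorem Sb_top_iff (p : RR1 Q k × RR2 Q k) (U : ∀ i : I, Submodule k (Fin (Q.v i) → k))
    (hU : (pt p).IsSub U) (hi : ∀ (i : I) (a : Fin (Q.w i) → k), ((pt p).i i).mulVec a ∈ U i) :
    Sb p.1 p.2 (gs (Q := Q) ⊤ U) := by
  refine ⟨?_, ?_⟩
  · rintro (e | ⟨i, l⟩) u hu
    · exact sub_x p U hU e u hu
    · exact (Submodule.mem_top : aj p.1 i l u ∈ (⊤ : Submodule k (Fin 1 → k)))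
  · rintro (e | ⟨i, l⟩) u hu
    · exact sub_y p U hU e u hu
    · exact sub_i p U hi i l u

theorem ker_aux (p : RR1 Q k × RR2 Q k) (U' : ∀ j, Submodule k (N3.FV k (vf Q) 1 j))
    (h : Sb p.1 p.2 U') (h0 : un U' = ⊥) (i : I) (u : Fin (Q.v i) → k)
    (hu : u ∈ us U' i) : ((pt p).j i).mulVec u = 0 := by
  funext l
  rw [pt_j]
  have h1 : aj p.1 i l u ∈ un U' := h.1 (Sum.inr ⟨i, l⟩) u hu
  rw [h0, Submodule.mem_bot] at h1
  exact congrFun h1 0

theorem ker_of_Sb (p : RR1 Q k × RR2 Q k) (U' : ∀ j, Submodule k (N3.FV k (vf Q) 1 j))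
    (h : Sb p.1 p.2 U') (h0 : un U' = ⊥) :
    ∀ i, ∀ u ∈ us U' i, ((pt p).j i).mulVec u = 0 :=
  fun i u hu => ker_aux p U' h h0 i u hu

theorem im_of_Sb (p : RR1 Q k × RR2 Q k) (U' : ∀ j, Submodule k (N3.FV k (vf Q) 1 j))
    (h : Sb p.1 p.2 U') (h0 : un U' = ⊤) :
    ∀ (i : I) (a : Fin (Q.w i) → k), ((pt p).i i).mulVec a ∈ us U' i := by
  intro i a
  rw [pt_i]
  refine Submodule.sum_mem _ fun l _ => Submodule.smul_mem _ _ ?_
  have h3 : (fun _ => 1 : Fin 1 → k) ∈ un U' := by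
    rw [h0]
    exact Submodule.mem_top
  exact h.2 (Sum.inr ⟨i, l⟩) (fun _ => 1) h3

theorem ell_vf (ν : I → ℤ) : N6.ell ν (vf Q) = ∑ i, ν i * (Q.v i : ℤ) := rfl

theorem th_gs_bot (ν : I → ℤ) (U : ∀ i : I, Submodule k (Fin (Q.v i) → k)) :
    th (cn ν (vf Q)) (gs (Q := Q) ⊥ U) = QData.pair ν U := by
  unfold th
  rw [Fintype.sum_option]
  have h1 : Module.finrank k (gs (Q := Q) (⊥ : Submodule k (Fin 1 → k)) U none) = 0 := by
    show Module.finrank k (⊥ : Submodule k (Fin 1 → k)) = 0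
    exact finrank_bot k _
  rw [h1]
  show _ * ((0 : ℕ) : ℤ) + QData.pair ν U = _
  simp

theorem th_gs_top (ν : I → ℤ) (U : ∀ i : I, Submodule k (Fin (Q.v i) → k)) :
    th (cn ν (vf Q)) (gs (Q := Q) ⊤ U) = QData.pair ν U - ∑ i, ν i * (Q.v i : ℤ) := by
  unfold th
  rw [Fintype.sum_option]
  have h1 : Module.finrank k (gs (Q := Q) (⊤ : Submodule k (Fin 1 → k)) U none) = 1 := by
    show Module.finrank k (⊤ : Submodule k (Fin 1 → k)) = 1
    rw [finrank_top]
    simp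
  rw [h1]
  show - N6.ell ν (vf Q) * ((1 : ℕ) : ℤ) + QData.pair ν U = _
  rw [ell_vf]
  push_cast
  ring

theorem gs_self_bot (U' : ∀ j, Submodule k (N3.FV k (vf Q) 1 j)) (h0 : un U' = ⊥) :
    gs (Q := Q) ⊥ (us U') = U' := by
  funext j
  rcases j with _ | i
  · exact h0.symm
  · rfl

theorem gs_self_top (U' : ∀ j, Submodule k (N3.FV k (vf Q) 1 j)) (h0 : un U' = ⊤) :
    gs (Q := Q) ⊤ (us U') = U' := by
  funext j
  rcases j with _ | i
  · exact h0.symm
  · rfl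

theorem th_self_bot (ν : I → ℤ) (U' : ∀ j, Submodule k (N3.FV k (vf Q) 1 j))
    (h0 : un U' = ⊥) : th (cn ν (vf Q)) U' = QData.pair ν (us U') :=
  (congrArg (th (cn ν (vf Q))) (gs_self_bot U' h0)).symm.trans (th_gs_bot ν _)

theorem th_self_top (ν : I → ℤ) (U' : ∀ j, Submodule k (N3.FV k (vf Q) 1 j))
    (h0 : un U' = ⊤) : th (cn ν (vf Q)) U' = QData.pair ν (us U') - ∑ i, ν i * (Q.v i : ℤ) :=
  (congrArg (th (cn ν (vf Q))) (gs_self_top U' h0)).symm.trans (th_gs_top ν _)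

theorem bot_or_top (S : Submodule k (Fin 1 → k)) : S = ⊥ ∨ S = ⊤ := by
  have hf : Module.finrank k (Fin 1 → k) = 1 := by simp
  rcases Nat.lt_or_ge (Module.finrank k S) 1 with h | h
  · left
    exact Submodule.finrank_eq_zero.1 (by omega)
  · right
    apply Submodule.eq_top_of_finrank_eq
    have := Submodule.finrank_le S
    omega

theorem pt_SS (ν : I → ℤ) (p : RR1 Q k × RR2 Q k) :
    (pt p).SS ν ↔ Tp (cn ν (vf Q)) p.1 p.2 (fun _ => ⊥) := by
  constructor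
  · intro h
    refine ⟨N3.Sb_bot _ _, fun U' hU' => ⟨?_, fun _ _ => bot_le⟩⟩
    rw [N3.th_bot]
    have h1 := h _ (sub_of_Sb p U' hU')
    rcases bot_or_top (un U') with h0 | h0
    · exact (h1.1 (ker_of_Sb p U' hU' h0)).trans_eq (th_self_bot ν U' h0).symm
    · have h2 := h1.2 (im_of_Sb p U' hU' h0)
      have h3 := th_self_top ν U' h0
      rw [h3]
      linarith
  · rintro ⟨_, h⟩ U hU
    refine ⟨fun hj => ?_, fun hi => ?_⟩
    · have h1 := (h _ (Sb_bot_iff p U hU hj)).1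
      rw [N3.th_bot, th_gs_bot] at h1
      exact h1
    · have h1 := (h _ (Sb_top_iff p U hU hi)).1
      rw [N3.th_bot, th_gs_top] at h1
      linarith

/-- regularity over `k` in coordinates -/
theorem regK_of (ν : I → ℤ)
    (h : ∀ z : Q.Pt k, (∀ ξ, z.mu ξ = 0) → z.SS ν → z.St ν) : RegK (nq Q) k ν (vf Q) := by
  intro p hmu hss U hU h0
  have hst := h (pt p) ((muZero_pt p).2 hmu) ((pt_SS ν p).2 hss) _ (sub_of_Sb p U hU)
  rcases bot_or_top (un U) with h1 | h1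
  · left
    have h0' : QData.pair ν (us U) = 0 :=
      (th_self_bot ν U h1).symm.trans h0
    by_contra hne
    have h2 : ∃ i, us U i ≠ ⊥ := by
      by_contra hcon
      push Not at hcon
      apply hne
      rintro (_ | i)
      · exact h1
      · exact hcon i
    have h3 := hst.1 (ker_of_Sb p U hU h1) h2
    exact absurd h0' h3.ne'
  · right
    have h0' : QData.pair ν (us U)
        - ∑ i, ν i * (Q.v i : ℤ) = 0 :=
      (th_self_top ν U h1).symm.trans h0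
    by_contra hne
    have h2 : ∃ i, us U i ≠ ⊤ := by
      by_contra hcon
      push Not at hcon
      apply hne
      rintro (_ | i)
      · exact h1
      · exact hcon i
    have h3 := hst.2 (im_of_Sb p U hU h1) h2
    linarith

/-- the number of semistable points -/
theorem card_SS (ν : I → ℤ) :
    Nat.card {z : Q.Pt k // (∀ ξ, z.mu ξ = 0) ∧ z.SS ν} =
      Nat.card (N3.FF k (nq Q) (cn ν (vf Q)) (N3.FV k (vf Q) 1)) := by
  symm
  refine Nat.card_congr ((Equiv.ofBijective _ (pt_bijective (Q := Q) (k := k))).subtypeEquiv ?_)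
  intro p
  show MuZero p.1 p.2 ∧ Tp (cn ν (vf Q)) p.1 p.2 (fun _ => ⊥) ↔
    (∀ ξ, (pt p).mu ξ = 0) ∧ (pt p).SS ν
  rw [muZero_pt, pt_SS]

end Vale.Agent.P291.N7
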